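import Mathlib
import Vale.Agent.Lib.P110T.Ultra

/-! P110: an ultraflat sequence of real Littlewood polynomials, in Mathlib's language of polynomials. -/

namespace Vale.Agent.Results.P110.AUltraflatPolynomials

open Filter Topology

/-- There are real polynomials `P n` of degrees tending to infinity, all of whose coefficients are `1` or
`-1`, such that `|P n (z)| / √(length)` tends to `1` uniformly on the unit circle (length = degree + 1). -/
theorem result : ∃ P : ℕ → Polynomial ℝ,
    Tendsto (fun n => (P n).natDegree) atTop atTop ∧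
    (∀ n, ∀ k ≤ (P n).natDegree, (P n).coeff k = 1 ∨ (P n).coeff k = -1) ∧
    TendstoUniformly
      (fun n (z : Circle) => ‖Polynomial.aeval (z : ℂ) (P n)‖ / √((P n).natDegree + 1 : ℝ))
      (fun _ => 1) atTop := by
  obtain ⟨P, hdeg, hcoeff, hz⟩ := P110T.ultra_poly P110T.ultra
  refine ⟨P, hdeg, hcoeff, ?_⟩
  rw [Metric.tendstoUniformly_iff]
  intro η hη
  have h1 := (tendsto_one_div_add_atTop_nhds_zero_nat (𝕜 := ℝ)).eventually (gt_mem_nhds hη)
  filter_upwards [h1] with n hn z
  rw [dist_comm, Real.dist_eq]
  exact lt_of_le_of_lt (hz n z (Circle.norm_coe z)) hn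

end Vale.Agent.Results.P110.AUltraflatPolynomials
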