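import Mathlib
import Vale.Agent.Lib.P110T.Ultra

/-! P110: there is an ultraflat sequence of real Littlewood polynomials. -/

namespace Vale.Agent.Results.P110.AUltraflatSequence

open Filter Topology

/-- There are lengths `N n → ∞` and signs `ε n k ∈ {1, -1}`, `k < N n`, such that for the Littlewood
polynomials `P_n(z) = Σ_{k < N n} ε n k z^k` the maximum over `|z| = 1` of `| |P_n(z)| / √(N n) - 1 |` tends to
`0`; the maximum is written as a supremum, which is finite by the second statement. -/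
theorem result : ∃ (N : ℕ → ℕ) (ε : (n : ℕ) → Fin (N n) → ℝ),
    Tendsto N atTop atTop ∧ (∀ n k, ε n k = 1 ∨ ε n k = -1) ∧
    (∀ n, BddAbove (Set.range fun z : Metric.sphere (0 : ℂ) 1 =>
      |‖∑ k : Fin (N n), (ε n k : ℂ) * (z : ℂ) ^ (k : ℕ)‖ / √(N n : ℝ) - 1|)) ∧
    Tendsto (fun n => ⨆ z : Metric.sphere (0 : ℂ) 1,
      |‖∑ k : Fin (N n), (ε n k : ℂ) * (z : ℂ) ^ (k : ℕ)‖ / √(N n : ℝ) - 1|) atTop (𝓝 0) := by
  obtain ⟨N, s, hN, hs, hz⟩ := P110T.ultra_seq P110T.ultra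
  have hz2 : ∀ n, ∀ z : Metric.sphere (0 : ℂ) 1,
      |‖∑ k : Fin (N n), (s n k : ℂ) * (z : ℂ) ^ (k : ℕ)‖ / √(N n : ℝ) - 1| ≤
        1 / ((n : ℝ) + 1) := by
    intro n z
    have h1 := hz n z (by simp)
    rw [Finset.sum_range] at h1
    exact h1
  refine ⟨N, fun n k => s n k, tendsto_atTop_mono (fun n => (hN n).le) tendsto_id,
    fun n k => hs n k, fun n => ?_, ?_⟩
  · refine ⟨1 / ((n : ℝ) + 1), ?_⟩
    rintro _ ⟨z, rfl⟩
    exact hz2 n z
  · refine squeeze_zero (fun n => Real.iSup_nonneg fun z => abs_nonneg _) (fun n => ?_)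
      tendsto_one_div_add_atTop_nhds_zero_nat
    have : Nonempty (Metric.sphere (0 : ℂ) 1) := ⟨⟨1, by simp⟩⟩
    exact ciSup_le fun z => hz2 n z

end Vale.Agent.Results.P110.AUltraflatSequence
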