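import Vale.Agent.Lib.P033C.FlatAll
import Vale.Agent.Lib.P110T.CorrFin
import Vale.Agent.Lib.P110T.Forms

/-! P110: ultraflat real Littlewood polynomials of every length. -/

namespace Vale.Agent.Results.P110.AllLengthsUltraflat

open Filter Topology Vale.Agent

/-- There are signs `ε N k` such that the Littlewood polynomials `P_N(z) = ∑_{k < N} ε N k z ^ k`,
one of every length `N`, satisfy `|P_N(z)| / √N → 1` uniformly on the unit circle as `N → ∞`. -/
theorem result : ∃ ε : ℕ → ℕ → ℝ, (∀ N k, ε N k = 1 ∨ ε N k = -1) ∧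
    TendstoUniformly
      (fun (N : ℕ) (z : Circle) => ‖∑ k ∈ Finset.range N, (ε N k : ℂ) * (z : ℂ) ^ k‖ / √(N : ℝ))
      (fun _ => 1) atTop := by
  classical
  let Q : ℕ → ℕ → Prop := fun N m => ∃ s : ℕ → ℝ, (∀ k, s k = 1 ∨ s k = -1) ∧
    ∀ z : Circle, |‖∑ k ∈ Finset.range N, (s k : ℂ) * (z : ℂ) ^ k‖ / √(N : ℝ) - 1| ≤
      1 / ((m : ℝ) + 1)
  have hQ : ∀ m : ℕ, ∀ᶠ N : ℕ in atTop, Q N m := by
    intro m
    filter_upwards [P033C.flat_all P110T.correction (1 / ((m : ℝ) + 1)) (by positivity),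
      eventually_gt_atTop 0] with N hN hN0
    obtain ⟨s, hs, hx⟩ := hN
    refine ⟨s, hs, fun z => ?_⟩
    obtain ⟨x, hzx⟩ := P110T.exists_e1 (Circle.norm_coe z)
    simp only [hzx]
    obtain ⟨h2, h3⟩ := hx x
    have hM0 : 0 < √(N : ℝ) := Real.sqrt_pos.mpr (by exact_mod_cast hN0)
    have h4 := (le_div_iff₀ hM0).mpr h2
    have h5 := (div_le_iff₀ hM0).mpr h3
    rw [abs_le]
    constructor <;> linarith
  let μ : ℕ → ℕ := fun N => Nat.findGreatest (Q N) N
  refine ⟨fun N => if h : Q N (μ N) then Classical.choose h else fun _ => 1, fun N k => ?_, ?_⟩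
  · simp only
    split_ifs with h
    · exact (Classical.choose_spec h).1 k
    · exact Or.inl rfl
  · rw [Metric.tendstoUniformly_iff]
    intro η hη
    obtain ⟨m, hm⟩ := exists_nat_one_div_lt hη
    filter_upwards [hQ m, eventually_ge_atTop m] with N hN hmN z
    have h1 : Q N (μ N) := Nat.findGreatest_spec hmN hN
    have h2 : m ≤ μ N := Nat.le_findGreatest hmN hN
    rw [dif_pos h1, dist_comm, Real.dist_eq]
    refine ((Classical.choose_spec h1).2 z).trans_lt (lt_of_le_of_lt ?_ hm)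
    have h3 : (m : ℝ) ≤ μ N := by exact_mod_cast h2
    exact one_div_le_one_div_of_le (by positivity) (by linarith)

end Vale.Agent.Results.P110.AllLengthsUltraflat
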