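import Mathlib
import Vale.Agent.Lib.P110T.Ultra

/-! P110: alternative (i) of the question holds. -/

namespace Vale.Agent.Results.P110.AlternativeOne

/-- For every `c > 0` there are Littlewood polynomials `P` of arbitrarily large length `N` with
`(1 - c) √N ≤ |P(z)| ≤ (1 + c) √N` for all `|z| = 1`. -/
theorem result : ∀ c : ℝ, 0 < c → ∀ N₀ : ℕ, ∃ N : ℕ, N₀ ≤ N ∧ ∃ ε : Fin N → ℝ,
    (∀ k, ε k = 1 ∨ ε k = -1) ∧
    ∀ z : ℂ, ‖z‖ = 1 → (1 - c) * √(N : ℝ) ≤ ‖∑ k : Fin N, (ε k : ℂ) * z ^ (k : ℕ)‖ ∧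
      ‖∑ k : Fin N, (ε k : ℂ) * z ^ (k : ℕ)‖ ≤ (1 + c) * √(N : ℝ) := by
  intro c hc N₀
  obtain ⟨N, hN, s, hs, hz⟩ := P110T.ultra_circle P110T.ultra c hc N₀
  refine ⟨N, hN, fun k => s k, fun k => hs k, fun z hz1 => ?_⟩
  have h1 := hz z hz1
  rw [Finset.sum_range] at h1
  exact h1

end Vale.Agent.Results.P110.AlternativeOne
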