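import Mathlib
import Vale.Agent.Lib.P110F.FlatAll

/-!
Real Littlewood polynomials that are flat in mean: for every `δ > 0` and all large `N` there is a
polynomial with coefficients `1` and `-1` of length `N` whose modulus on the unit circle, divided
by the square root of `N`, is within `δ` of `1` off a set of measure at most `δ`.
-/

namespace Vale.Agent.Results.P110.FlatInMean

open MeasureTheory

/-- For every `δ > 0` there is `N₀` such that for all `N ≥ N₀` there are signs
`ε 0, …, ε (N - 1)` for which `P z = ∑ ε k z ^ k` satisfies, with `z = exp (2 π i t)`: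
the set of `t` in `[0, 1]` with `||P z| / √N - 1| > δ` has measure at most `δ`; the mean square of
`|P z| / √N - 1` is at most `δ`; and the mean of `|P z|` is at least `(1 - δ) √N`. -/
theorem result (δ : ℝ) (hδ : 0 < δ) : ∃ N₀ : ℕ, ∀ N ≥ N₀, ∃ ε : ℕ → ℝ,
    (∀ k, ε k = 1 ∨ ε k = -1) ∧
    volume {t : ℝ | 0 ≤ t ∧ t ≤ 1 ∧
      δ < |‖∑ k ∈ Finset.range N,
        (ε k : ℂ) * Complex.exp (2 * Real.pi * Complex.I * t) ^ k‖ / Real.sqrt N - 1|} ≤
      ENNReal.ofReal δ ∧
    ∫ t in (0 : ℝ)..1, (‖∑ k ∈ Finset.range N,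
      (ε k : ℂ) * Complex.exp (2 * Real.pi * Complex.I * t) ^ k‖ / Real.sqrt N - 1) ^ 2 ≤ δ ∧
    (1 - δ) * Real.sqrt N ≤ ∫ t in (0 : ℝ)..1, ‖∑ k ∈ Finset.range N,
      (ε k : ℂ) * Complex.exp (2 * Real.pi * Complex.I * t) ^ k‖ := by
  have hη : 0 < min δ (δ ^ 2) := lt_min hδ (by positivity)
  obtain ⟨N₁, hN₁⟩ := Vale.Agent.P110F.flat_all hη
  refine ⟨max N₁ 1, fun N hN => ?_⟩
  have hN1 : 1 ≤ N := (le_max_right _ _).trans hN
  obtain ⟨a, ha, hint⟩ := hN₁ N ((le_max_left _ _).trans hN)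
  have hNr : (0 : ℝ) < N := by exact_mod_cast hN1
  have hs : 0 < Real.sqrt N := Real.sqrt_pos.2 hNr
  have hpe : ∀ t : ℝ, ∑ j ∈ Finset.range N, (a j : ℂ) * Vale.Agent.P110F.e1 (j * t) =
      ∑ k ∈ Finset.range N, (a k : ℂ) * Complex.exp (2 * Real.pi * Complex.I * t) ^ k := by
    intro t
    refine Finset.sum_congr rfl fun k _ => ?_
    rw [← Complex.exp_nat_mul]
    unfold Vale.Agent.P110F.e1
    congr 2
    push_cast
    ring
  simp only [hpe] at hint
  obtain ⟨P, hP⟩ : ∃ P : ℝ → ℝ, P = fun t : ℝ => ‖∑ k ∈ Finset.range N,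
      (a k : ℂ) * Complex.exp (2 * Real.pi * Complex.I * t) ^ k‖ := ⟨_, rfl⟩
  have hPc : Continuous P := by
    rw [hP]
    fun_prop
  have hP0 : ∀ t, 0 ≤ P t := fun t => by
    rw [hP]
    positivity
  have hint' : ∫ t in (0 : ℝ)..1, |P t ^ 2 / N - 1| ≤ min δ (δ ^ 2) := by
    rw [hP]
    exact hint
  have hkey : ∀ t, |P t / Real.sqrt N - 1| ≤ |P t ^ 2 / N - 1| := by
    intro t
    have h1 : P t ^ 2 / N - 1 = (P t / Real.sqrt N - 1) * (P t / Real.sqrt N + 1) := by
      have h2 : Real.sqrt N ^ 2 = N := Real.sq_sqrt hNr.le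
      have h3 : (P t / Real.sqrt N - 1) * (P t / Real.sqrt N + 1) =
          P t ^ 2 / Real.sqrt N ^ 2 - 1 := by
        rw [← div_pow]
        ring
      rw [h3, h2]
    rw [h1, abs_mul]
    have h4 : 0 ≤ P t / Real.sqrt N := div_nonneg (hP0 t) hs.le
    have h5 : 1 ≤ |P t / Real.sqrt N + 1| := by
      rw [abs_of_nonneg (by linarith)]
      linarith
    nlinarith [abs_nonneg (P t / Real.sqrt N - 1)]
  have hkey2 : ∀ t, (P t / Real.sqrt N - 1) ^ 2 ≤ |P t ^ 2 / N - 1| := by
    intro t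
    have h2 : Real.sqrt N ^ 2 = N := Real.sq_sqrt hNr.le
    have h3 : P t ^ 2 / N - 1 = (P t / Real.sqrt N - 1) * (P t / Real.sqrt N + 1) := by
      have h3 : (P t / Real.sqrt N - 1) * (P t / Real.sqrt N + 1) =
          P t ^ 2 / Real.sqrt N ^ 2 - 1 := by
        rw [← div_pow]
        ring
      rw [h3, h2]
    rw [h3, abs_mul, ← sq_abs, sq]
    apply mul_le_mul_of_nonneg_left _ (abs_nonneg _)
    have h4 : 0 ≤ P t / Real.sqrt N := div_nonneg (hP0 t) hs.le
    rw [abs_of_nonneg (show 0 ≤ P t / Real.sqrt N + 1 by linarith)]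
    rw [abs_le]
    constructor <;> linarith
  have hc1 : Continuous fun t => |P t / Real.sqrt N - 1| := by fun_prop
  have hc2 : Continuous fun t => |P t ^ 2 / (N : ℝ) - 1| := by fun_prop
  have hc3 : Continuous fun t => (P t / Real.sqrt N - 1) ^ 2 := by fun_prop
  have hI1 : ∫ t in (0 : ℝ)..1, |P t / Real.sqrt N - 1| ≤ min δ (δ ^ 2) :=
    (intervalIntegral.integral_mono_on zero_le_one (hc1.intervalIntegrable _ _)
      (hc2.intervalIntegrable _ _) fun t _ => hkey t).trans hint'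
  have hI2 : ∫ t in (0 : ℝ)..1, (P t / Real.sqrt N - 1) ^ 2 ≤ min δ (δ ^ 2) :=
    (intervalIntegral.integral_mono_on zero_le_one (hc3.intervalIntegrable _ _)
      (hc2.intervalIntegrable _ _) fun t _ => hkey2 t).trans hint'
  refine ⟨a, ha, ?_, ?_, ?_⟩
  · have hset : {t : ℝ | 0 ≤ t ∧ t ≤ 1 ∧ δ < |‖∑ k ∈ Finset.range N,
        (a k : ℂ) * Complex.exp (2 * Real.pi * Complex.I * t) ^ k‖ / Real.sqrt N - 1|} ⊆
        {t | δ ≤ |P t / Real.sqrt N - 1|} ∩ Set.Icc 0 1 := by
      rintro t ⟨h1, h2, h3⟩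
      refine ⟨?_, h1, h2⟩
      rw [hP]
      exact h3.le
    refine (measure_mono hset).trans ?_
    have hmar := meas_ge_le_lintegral_div (μ := volume.restrict (Set.Icc (0 : ℝ) 1))
      (f := fun t => ENNReal.ofReal |P t / Real.sqrt N - 1|)
      (hc1.measurable.ennreal_ofReal.aemeasurable) (ε := ENNReal.ofReal δ)
      (by simpa using hδ) ENNReal.ofReal_ne_top
    have hset2 : {t | δ ≤ |P t / Real.sqrt N - 1|} ∩ Set.Icc 0 1 =
        {t | ENNReal.ofReal δ ≤ ENNReal.ofReal |P t / Real.sqrt N - 1|} ∩ Set.Icc 0 1 := by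
      ext t
      simp only [Set.mem_inter_iff, Set.mem_ofPred_eq]
      rw [ENNReal.ofReal_le_ofReal_iff (abs_nonneg _)]
    have hms : MeasurableSet
        {t | ENNReal.ofReal δ ≤ ENNReal.ofReal |P t / Real.sqrt N - 1|} :=
      measurableSet_le measurable_const hc1.measurable.ennreal_ofReal
    rw [hset2, ← Measure.restrict_apply hms]
    refine hmar.trans ?_
    have hlin : ∫⁻ t in Set.Icc (0 : ℝ) 1, ENNReal.ofReal |P t / Real.sqrt N - 1| =
        ENNReal.ofReal (∫ t in (0 : ℝ)..1, |P t / Real.sqrt N - 1|) := by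
      rw [intervalIntegral.integral_of_le zero_le_one, ← integral_Icc_eq_integral_Ioc,
        ofReal_integral_eq_lintegral_ofReal]
      · exact (hc1.integrableOn_Icc)
      · exact Filter.Eventually.of_forall fun t => abs_nonneg _
    rw [hlin]
    apply ENNReal.div_le_of_le_mul
    rw [← ENNReal.ofReal_mul hδ.le]
    apply ENNReal.ofReal_le_ofReal
    refine hI1.trans ((min_le_right _ _).trans (le_of_eq ?_))
    ring
  · have h1 : (fun t : ℝ => (‖∑ k ∈ Finset.range N,
      (a k : ℂ) * Complex.exp (2 * Real.pi * Complex.I * t) ^ k‖ / Real.sqrt N - 1) ^ 2) =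
        fun t => (P t / Real.sqrt N - 1) ^ 2 := by rw [hP]
    rw [h1]
    exact hI2.trans (min_le_left _ _)
  · have h1 : (fun t : ℝ => ‖∑ k ∈ Finset.range N,
      (a k : ℂ) * Complex.exp (2 * Real.pi * Complex.I * t) ^ k‖) = P := by rw [hP]
    rw [h1]
    have h2 : ∫ t in (0 : ℝ)..1, (1 - P t / Real.sqrt N) ≤ δ := by
      refine le_trans (intervalIntegral.integral_mono_on zero_le_one
        ((by fun_prop : Continuous fun t => 1 - P t / Real.sqrt N).intervalIntegrable _ _)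
        (hc1.intervalIntegrable _ _) fun t _ => ?_) (hI1.trans (min_le_left _ _))
      rw [abs_sub_comm]
      exact le_abs_self _
    rw [intervalIntegral.integral_sub (by simp)
      ((by fun_prop : Continuous fun t => P t / Real.sqrt N).intervalIntegrable _ _),
      intervalIntegral.integral_div] at h2
    simp only [intervalIntegral.integral_const, sub_zero, smul_eq_mul, mul_one] at h2
    have h3 : 1 - δ ≤ (∫ t in (0 : ℝ)..1, P t) / Real.sqrt N := by linarith
    rwa [le_div_iff₀ hs] at h3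

end Vale.Agent.Results.P110.FlatInMean
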