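import Mathlib

/-! P110: in every real Littlewood polynomial of length `N ≥ 100` some initial segment of length
`M ≥ N^(3/4)/15` is not flat within a factor `1 ± 1/16`, already at `z = 1` or at
`z = exp (2 π i / M)`. -/

namespace Vale.Agent.Results.P110.InitialSegments

open Finset

/-- partial sums of the coefficients -/
noncomputable def S (ε : ℕ → ℝ) (M : ℕ) : ℝ := ∑ n ∈ range M, ε n

theorem S_succ (ε : ℕ → ℝ) (M : ℕ) : S ε (M + 1) = S ε M + ε M := by
  rw [S, sum_range_succ, S]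

theorem S_abs {ε : ℕ → ℝ} (hε : ∀ n, ε n = 1 ∨ ε n = -1) (M : ℕ) : |S ε M| ≤ M := by
  rw [S]
  refine (abs_sum_le_sum_abs _ _).trans ?_
  have : ∀ n ∈ range M, |ε n| ≤ 1 := by
    intro n _
    rcases hε n with h | h <;> simp [h]
  refine (sum_le_sum this).trans ?_
  simp

/-- the coefficients of the comparison polynomial -/
noncomputable def q (n : ℕ) : ℝ := √((n : ℝ) + 1) - √(n : ℝ)

theorem q_anti {a b : ℕ} (h : a ≤ b) : q b ≤ q a := by
  have key : ∀ n : ℕ, q n = 1 / (√((n : ℝ) + 1) + √(n : ℝ)) := by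
    intro n
    have h1 : 0 < √((n : ℝ) + 1) := Real.sqrt_pos.2 (by positivity)
    have h2 : 0 ≤ √(n : ℝ) := Real.sqrt_nonneg _
    rw [q, eq_div_iff (by positivity)]
    have h3 : √((n : ℝ) + 1) * √((n : ℝ) + 1) = (n : ℝ) + 1 := Real.mul_self_sqrt (by positivity)
    have h4 : √(n : ℝ) * √(n : ℝ) = (n : ℝ) := Real.mul_self_sqrt (by positivity)
    nlinarith
  rw [key, key]
  have hab : (a : ℝ) ≤ b := by exact_mod_cast h
  have h1 : 0 < √((a : ℝ) + 1) := Real.sqrt_pos.2 (by positivity)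
  have h2 : 0 ≤ √(a : ℝ) := Real.sqrt_nonneg _
  refine one_div_le_one_div_of_le (by positivity) ?_
  exact add_le_add (Real.sqrt_le_sqrt (by linarith)) (Real.sqrt_le_sqrt hab)

theorem q_sum (a b : ℕ) : ∑ n ∈ range b, q (n + a) = √((b + a : ℕ) : ℝ) - √(a : ℝ) := by
  induction b with
  | zero => simp
  | succ b ih =>
    rw [sum_range_succ, ih, q]
    push_cast
    have : (b : ℝ) + a + 1 = b + 1 + a := by ring
    rw [this]
    ring

/-- bound of the comparison polynomial at a root of unity of order `2 h` -/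
theorem Q_bound (h : ℕ) {z : ℂ} (hz : ‖z‖ = 1) (hh : z ^ h = -1) :
    ‖∑ n ∈ range (2 * h), (q n : ℂ) * z ^ n‖ ≤ 2 * √(h : ℝ) - √((2 * h : ℕ) : ℝ) := by
  have e : ∑ n ∈ range (2 * h), (q n : ℂ) * z ^ n =
      ∑ n ∈ range h, ((q n - q (n + h) : ℝ) : ℂ) * z ^ n := by
    rw [two_mul, sum_range_add, ← sum_add_distrib]
    refine sum_congr rfl fun n _ => ?_
    rw [pow_add, hh, add_comm h n]
    push_cast
    ring
  rw [e]
  refine (norm_sum_le _ _).trans ?_
  have h1 : ∀ n ∈ range h, ‖((q n - q (n + h) : ℝ) : ℂ) * z ^ n‖ = q n - q (n + h) := by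
    intro n _
    rw [norm_mul, norm_pow, hz, one_pow, mul_one, Complex.norm_real, Real.norm_of_nonneg]
    exact sub_nonneg.2 (q_anti (Nat.le_add_right _ _))
  rw [sum_congr rfl h1, sum_sub_distrib, q_sum h h]
  have h2 := q_sum 0 h
  simp only [add_zero, Nat.cast_zero, Real.sqrt_zero, sub_zero] at h2
  rw [h2, ← two_mul h]
  linarith

/-- summation by parts -/
theorem abel (e : ℕ → ℝ) (z : ℂ) (N : ℕ) :
    ∑ n ∈ range N, (e n : ℂ) * z ^ n = (S e N : ℂ) * z ^ N -
      ∑ M ∈ range N, (S e (M + 1) : ℂ) * (z ^ M * (z - 1)) := by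
  induction N with
  | zero => simp [S]
  | succ N ih =>
    rw [sum_range_succ, sum_range_succ, ih, S_succ]
    push_cast
    ring

theorem abel_bound (e : ℕ → ℝ) {z : ℂ} (hz : ‖z‖ = 1) (N : ℕ) :
    ‖∑ n ∈ range N, (e n : ℂ) * z ^ n‖ ≤ |S e N| + ‖z - 1‖ * ∑ M ∈ range N, |S e (M + 1)| := by
  rw [abel]
  refine (norm_sub_le _ _).trans (add_le_add (le_of_eq ?_) ?_)
  · rw [norm_mul, norm_pow, hz, one_pow, mul_one, Complex.norm_real, Real.norm_eq_abs]
  · refine (norm_sum_le _ _).trans (le_of_eq ?_)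
    rw [mul_sum]
    refine sum_congr rfl fun M _ => ?_
    rw [norm_mul, norm_mul, norm_pow, hz, one_pow, one_mul, Complex.norm_real, Real.norm_eq_abs,
      mul_comm]

/-- constant sign of the partial sums -/
theorem sign_const {ε : ℕ → ℝ} (hε : ∀ n, ε n = 1 ∨ ε n = -1) {k N : ℕ}
    (h : ∀ M, k < M → M ≤ N → 15 / 16 ≤ |S ε M|) :
    ∃ σ : ℝ, (σ = 1 ∨ σ = -1) ∧ ∀ M, k < M → M ≤ N → S ε M = σ * |S ε M| := by
  rcases le_or_gt N k with hk | hk
  · exact ⟨1, Or.inl rfl, fun M h1 h2 => by omega⟩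
  have hmain : ∀ σ : ℝ, (σ = 1 ∨ σ = -1) → S ε (k + 1) = σ * |S ε (k + 1)| →
      ∀ M, k < M → M ≤ N → S ε M = σ * |S ε M| := by
    intro σ hσ h0 M hM
    induction M, hM using Nat.le_induction with
    | base => exact fun _ => h0
    | succ M hM ih =>
      intro hMN
      have ih' := ih (by omega)
      have a1 := h M (by omega) (by omega)
      have a2 := h (M + 1) (by omega) hMN
      rw [S_succ] at a2 ⊢
      have hσ2 : σ * σ = 1 := by rcases hσ with h | h <;> rw [h] <;> norm_num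
      have a3 : σ * S ε M = |S ε M| := by
        conv_lhs => rw [ih']
        rw [← mul_assoc, hσ2, one_mul]
      have a4 : -1 ≤ σ * ε M := by
        rcases hσ with h | h <;> rcases hε M with h' | h' <;> rw [h, h'] <;> norm_num
      have a5 : 0 < σ * (S ε M + ε M) := by
        by_contra hcon
        have b1 : σ * (S ε M + ε M) ≤ 0 := not_lt.1 hcon
        have b2 : |S ε M + ε M| = -(σ * (S ε M + ε M)) := by
          have : |σ * (S ε M + ε M)| = |S ε M + ε M| := by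
            rw [abs_mul]
            rcases hσ with h | h <;> rw [h] <;> simp
          rw [← this, abs_of_nonpos b1]
        rw [b2, mul_add, a3] at a2
        linarith
      have a6 : |S ε M + ε M| = σ * (S ε M + ε M) := by
        have : |σ * (S ε M + ε M)| = |S ε M + ε M| := by
          rw [abs_mul]
          rcases hσ with h | h <;> rw [h] <;> simp
        rw [← this, abs_of_pos a5]
      rw [a6, ← mul_assoc, hσ2, one_mul]
  rcases le_total 0 (S ε (k + 1)) with h1 | h1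
  · exact ⟨1, Or.inl rfl, hmain 1 (Or.inl rfl) (by rw [abs_of_nonneg h1, one_mul])⟩
  · exact ⟨-1, Or.inr rfl, hmain (-1) (Or.inr rfl) (by rw [abs_of_nonpos h1]; ring)⟩

/-- the deviation from the comparison sequence -/
theorem S_diff (ε : ℕ → ℝ) (σ : ℝ) (M : ℕ) :
    S (fun n => ε n - σ * q n) M = S ε M - σ * √(M : ℝ) := by
  have h := q_sum 0 M
  simp only [add_zero, Nat.cast_zero, Real.sqrt_zero, sub_zero] at h
  rw [S, sum_sub_distrib, ← mul_sum, h, S]

theorem sum_small (k N : ℕ) (f : ℕ → ℝ) {b : ℝ} (hb : 0 ≤ b)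
    (h1 : ∀ M, 1 ≤ M → M ≤ k → f M ≤ 2 * M) (h2 : ∀ M, k < M → M ≤ N → f M ≤ b) :
    ∑ M ∈ range N, f (M + 1) ≤ 2 * (k : ℝ) ^ 2 + N * b := by
  have h3 : ∀ M ∈ range N, f (M + 1) ≤ (if M < k then 2 * ((M : ℝ) + 1) else 0) + b := by
    intro M hM
    rw [mem_range] at hM
    split_ifs with hk
    · have := h1 (M + 1) (by omega) (by omega)
      push_cast at this
      linarith
    · have := h2 (M + 1) (by omega) (by omega)
      linarith
  refine (sum_le_sum h3).trans ?_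
  rw [sum_add_distrib, sum_const, card_range, nsmul_eq_mul]
  have h4 : ∀ N : ℕ, ∑ M ∈ range N, (if M < k then 2 * ((M : ℝ) + 1) else 0) ≤
      2 * (k : ℝ) ^ 2 := by
    intro N
    have h5 : ∑ M ∈ range N, (if M < k then 2 * ((M : ℝ) + 1) else 0) ≤
        ∑ M ∈ range k, 2 * ((M : ℝ) + 1) := by
      rw [← sum_filter]
      refine sum_le_sum_of_subset_of_nonneg ?_ fun _ _ _ => by positivity
      intro M hM
      rw [mem_filter] at hM
      exact mem_range.2 hM.2
    refine h5.trans ?_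
    have h6 : ∀ k : ℕ, ∑ M ∈ range k, 2 * ((M : ℝ) + 1) = k * (k + 1) := by
      intro k
      induction k with
      | zero => simp
      | succ k ih =>
        rw [sum_range_succ, ih]
        push_cast
        ring
    rw [h6]
    have h7 : (k : ℝ) ≤ (k : ℝ) ^ 2 := by
      rcases Nat.eq_zero_or_pos k with h | h
      · rw [h]; simp
      · have : (1 : ℝ) ≤ k := by exact_mod_cast h
        nlinarith
    nlinarith
  have := h4 N
  linarith

theorem main (N : ℕ) (hN : 100 ≤ N) (ε : ℕ → ℝ) (hε : ∀ n, ε n = 1 ∨ ε n = -1)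
    (hflat : ∀ M : ℕ, N ^ 3 ≤ (15 * M) ^ 4 → M ≤ N → ∀ z : ℂ,
      (z = 1 ∨ z = Complex.exp (2 * Real.pi * Complex.I / M)) →
        |‖∑ n ∈ range M, (ε n : ℂ) * z ^ n‖ / √(M : ℝ) - 1| < 1 / 16) : False := by
  -- the threshold
  obtain ⟨r, hr⟩ : ∃ r : ℝ, r = √((N : ℝ) * √(N : ℝ)) / 15 := ⟨_, rfl⟩
  have hN0 : (0 : ℝ) ≤ N := by positivity
  have hs0 : 0 ≤ √(N : ℝ) := Real.sqrt_nonneg _
  have hss : √(N : ℝ) * √(N : ℝ) = N := Real.mul_self_sqrt hN0
  have hr0 : 0 ≤ r := by rw [hr]; positivity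
  have hr2 : 225 * r ^ 2 = N * √(N : ℝ) := by
    rw [hr, div_pow, Real.sq_sqrt (by positivity)]
    ring
  obtain ⟨k, hk⟩ : ∃ k : ℕ, k = ⌊r⌋₊ := ⟨_, rfl⟩
  have hkr : (k : ℝ) ≤ r := by rw [hk]; exact Nat.floor_le hr0
  have hbig : ∀ M : ℕ, k < M → N ^ 3 ≤ (15 * M) ^ 4 := by
    intro M hM
    have h1 : r < M := by
      rw [hk] at hM
      exact Nat.lt_of_floor_lt hM
    have h2 : (N : ℝ) * √(N : ℝ) ≤ (15 * M : ℝ) ^ 2 := by
      rw [← hr2]
      nlinarith
    have h3 : ((N : ℝ) * √(N : ℝ)) ^ 2 ≤ ((15 * M : ℝ) ^ 2) ^ 2 :=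
      pow_le_pow_left₀ (by positivity) h2 2
    have h4 : ((N : ℝ) * √(N : ℝ)) ^ 2 = (N : ℝ) ^ 3 := by
      rw [mul_pow, Real.sq_sqrt hN0]
      ring
    rw [h4, ← pow_mul] at h3
    exact_mod_cast h3
  -- flatness at `1`
  have h1 : ∀ M, k < M → M ≤ N → |(|S ε M|) - √(M : ℝ)| ≤ √(M : ℝ) / 16 := by
    intro M hM hMN
    have hM0 : (0 : ℝ) < M := by
      have : 0 < M := by omega
      exact_mod_cast this
    have hsM : 0 < √(M : ℝ) := Real.sqrt_pos.2 hM0
    have h2 := hflat M (hbig M hM) hMN 1 (Or.inl rfl)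
    have h3 : ‖∑ n ∈ range M, (ε n : ℂ) * (1 : ℂ) ^ n‖ = |S ε M| := by
      have : ∑ n ∈ range M, (ε n : ℂ) * (1 : ℂ) ^ n = ((S ε M : ℝ) : ℂ) := by
        rw [S]
        push_cast
        simp
      rw [this, Complex.norm_real, Real.norm_eq_abs]
    rw [h3] at h2
    have h4 : |S ε M| / √(M : ℝ) - 1 = (|S ε M| - √(M : ℝ)) / √(M : ℝ) := by
      field_simp
    rw [h4, abs_div, abs_of_pos hsM, div_lt_iff₀ hsM] at h2
    linarith
  have hlow : ∀ M, k < M → M ≤ N → 15 / 16 ≤ |S ε M| := by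
    intro M hM hMN
    have h2 := (abs_le.1 (h1 M hM hMN)).1
    have hM1 : (1 : ℝ) ≤ M := by
      have : 1 ≤ M := by omega
      exact_mod_cast this
    have h3 : 1 ≤ √(M : ℝ) := Real.one_le_sqrt.2 hM1
    linarith
  obtain ⟨σ, hσ, hsign⟩ := sign_const hε hlow
  have hσa : |σ| = 1 := by rcases hσ with h | h <;> rw [h] <;> simp
  -- an even length
  obtain ⟨h, hh1, hh2⟩ : ∃ h : ℕ, 2 * h ≤ N ∧ N ≤ 2 * h + 1 := ⟨N / 2, by omega, by omega⟩
  have hh50 : 50 ≤ h := by omega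
  obtain ⟨n, hn⟩ : ∃ n : ℕ, n = 2 * h := ⟨_, rfl⟩
  have hn100 : (100 : ℝ) ≤ n := by
    have : 100 ≤ n := by omega
    exact_mod_cast this
  have hnN : n ≤ N := by omega
  have hNn : (N : ℝ) ≤ 1.01 * n := by
    have : (N : ℝ) ≤ n + 1 := by
      have : N ≤ n + 1 := by omega
      exact_mod_cast this
    linarith
  obtain ⟨s, hs⟩ : ∃ s : ℝ, s = √(n : ℝ) := ⟨_, rfl⟩
  have hs1 : 0 < s := by rw [hs]; exact Real.sqrt_pos.2 (by linarith)
  have hs2 : s * s = n := by rw [hs]; exact Real.mul_self_sqrt (by linarith)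
  have hsN : √(N : ℝ) ≤ 1.005 * s := by
    apply Real.sqrt_le_iff.2
    refine ⟨by positivity, ?_⟩
    nlinarith
  have hkn : k < n := by
    have h2 : r < n := by
      by_contra hcon
      push Not at hcon
      have h3 : 225 * (n : ℝ) ^ 2 ≤ 225 * r ^ 2 := by nlinarith
      rw [hr2] at h3
      have hN1 : (100 : ℝ) ≤ N := by exact_mod_cast hN
      have h5 : √(N : ℝ) ≤ N := by
        rw [Real.sqrt_le_left (by linarith)]
        nlinarith
      have h6 : (N : ℝ) * √(N : ℝ) ≤ N * N := mul_le_mul_of_nonneg_left h5 hN0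
      nlinarith
    have h3 : (k : ℝ) < n := hkr.trans_lt h2
    exact_mod_cast h3
  -- the point
  obtain ⟨z, hz⟩ : ∃ z : ℂ, z = Complex.exp (2 * Real.pi * Complex.I / n) := ⟨_, rfl⟩
  have hn0 : (n : ℂ) ≠ 0 := by
    have : n ≠ 0 := by omega
    exact_mod_cast this
  have hz' : z = Complex.exp (Complex.I * ((2 * Real.pi / n : ℝ) : ℂ)) := by
    rw [hz]
    congr 1
    push_cast
    ring
  have hznorm : ‖z‖ = 1 := by rw [hz', Complex.norm_exp_I_mul_ofReal]
  have hz1 : ‖z - 1‖ ≤ 2 * Real.pi / n := by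
    rw [hz']
    refine Real.norm_exp_I_mul_ofReal_sub_one_le.trans (le_of_eq ?_)
    rw [Real.norm_of_nonneg (by positivity)]
  have hzh : z ^ h = -1 := by
    rw [hz, ← Complex.exp_nat_mul]
    have : (h : ℂ) * (2 * Real.pi * Complex.I / n) = Real.pi * Complex.I := by
      have h2 : (n : ℂ) = 2 * h := by rw [hn]; push_cast; ring
      rw [h2]
      have h3 : (h : ℂ) ≠ 0 := by
        have : h ≠ 0 := by omega
        exact_mod_cast this
      field_simp
    rw [this, Complex.exp_pi_mul_I]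
  -- lower bound at `z`
  have hlowz : 15 / 16 * s ≤ ‖∑ m ∈ range n, (ε m : ℂ) * z ^ m‖ := by
    have h2 := hflat n (hbig n hkn) hnN z (Or.inr hz)
    rw [← hs] at h2
    have h3 := (abs_lt.1 h2).1
    have h4 : 15 / 16 < ‖∑ m ∈ range n, (ε m : ℂ) * z ^ m‖ / s := by linarith
    rw [lt_div_iff₀ hs1] at h4
    exact h4.le
  -- upper bound at `z`
  have hdec : ∑ m ∈ range n, (ε m : ℂ) * z ^ m =
      (σ : ℂ) * ∑ m ∈ range n, (q m : ℂ) * z ^ m +
        ∑ m ∈ range n, (((fun m => ε m - σ * q m) m : ℝ) : ℂ) * z ^ m := by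
    rw [mul_sum, ← sum_add_distrib]
    refine sum_congr rfl fun m _ => ?_
    push_cast
    ring
  have hQ : ‖(σ : ℂ) * ∑ m ∈ range n, (q m : ℂ) * z ^ m‖ ≤ 0.4143 * s := by
    rw [norm_mul, Complex.norm_real, Real.norm_eq_abs, hσa, one_mul, hn]
    refine (Q_bound h hznorm hzh).trans ?_
    rw [← hn, ← hs]
    have h2 : √(h : ℝ) ≤ 0.70715 * s := by
      apply Real.sqrt_le_iff.2
      refine ⟨by positivity, ?_⟩
      have h3 : (n : ℝ) = 2 * h := by rw [hn]; push_cast; ring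
      have h4 : (0 : ℝ) ≤ h := by positivity
      rw [mul_pow, pow_two s, hs2, h3]
      nlinarith
    linarith
  have hD : ∀ M, k < M → M ≤ N → |S (fun m => ε m - σ * q m) M| ≤ √(M : ℝ) / 16 := by
    intro M hM hMN
    rw [S_diff]
    have h2 : S ε M - σ * √(M : ℝ) = σ * (|S ε M| - √(M : ℝ)) := by
      conv_lhs => rw [hsign M hM hMN]
      ring
    rw [h2, abs_mul, hσa, one_mul]
    exact h1 M hM hMN
  have hDs : ∀ M, 1 ≤ M → M ≤ k → |S (fun m => ε m - σ * q m) M| ≤ 2 * M := by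
    intro M hM _
    rw [S_diff]
    have hM1 : (1 : ℝ) ≤ M := by exact_mod_cast hM
    have h2 : √(M : ℝ) ≤ M := by
      rw [Real.sqrt_le_left (by linarith)]
      nlinarith
    refine (abs_sub _ _).trans ?_
    rw [abs_mul, hσa, one_mul, abs_of_nonneg (Real.sqrt_nonneg _)]
    have := S_abs hε M
    linarith
  have hsum := sum_small k n (fun M => |S (fun m => ε m - σ * q m) M|)
    (b := s / 16) (by positivity) hDs (fun M hM hMn => (hD M hM (hMn.trans hnN)).trans (by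
      have : √(M : ℝ) ≤ s := by
        rw [hs]
        exact Real.sqrt_le_sqrt (by exact_mod_cast hMn)
      linarith))
  have hA := abel_bound (fun m => ε m - σ * q m) hznorm n
  have hDn := hD n hkn hnN
  rw [← hs] at hDn
  have hup : ‖∑ m ∈ range n, (ε m : ℂ) * z ^ m‖ ≤ 0.4143 * s + (s / 16 +
      2 * Real.pi / n * (2 * (k : ℝ) ^ 2 + n * (s / 16))) := by
    rw [hdec]
    refine (norm_add_le _ _).trans (add_le_add hQ (hA.trans (add_le_add hDn ?_)))
    exact mul_le_mul hz1 hsum (sum_nonneg fun _ _ => abs_nonneg _) (by positivity)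
  have hpi : Real.pi < 3.1416 := Real.pi_lt_d4
  have hpi0 : 0 < Real.pi := Real.pi_pos
  have hk2 : (k : ℝ) ^ 2 ≤ 0.0045114 * (n * s) := by
    have h2 : (k : ℝ) ^ 2 ≤ r ^ 2 := pow_le_pow_left₀ (by positivity) hkr 2
    have h3 : 225 * r ^ 2 ≤ 1.01505 * (n * s) := by
      rw [hr2]
      have h4 : (N : ℝ) * √(N : ℝ) ≤ 1.01 * n * (1.005 * s) :=
        mul_le_mul hNn hsN hs0 (by positivity)
      linarith
    have h5 : 0 ≤ (n : ℝ) * s := by positivity
    linarith
  have hfin : 2 * Real.pi / n * (2 * (k : ℝ) ^ 2 + n * (s / 16)) ≤ 0.45 * s := by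
    rw [div_mul_eq_mul_div, div_le_iff₀ (by linarith)]
    have h2 : 0 ≤ (n : ℝ) * s := by positivity
    have h3 : 2 * (k : ℝ) ^ 2 + n * (s / 16) ≤ 0.0715228 * (n * s) := by linarith
    have h4 : 2 * Real.pi * (2 * (k : ℝ) ^ 2 + n * (s / 16)) ≤
        2 * 3.1416 * (0.0715228 * (n * s)) :=
      mul_le_mul (by linarith) h3 (by positivity) (by norm_num)
    linarith
  linarith

theorem result (N : ℕ) (hN : 100 ≤ N) (ε : ℕ → ℝ) (hε : ∀ n, ε n = 1 ∨ ε n = -1) :
    ∃ M : ℕ, N ^ 3 ≤ (15 * M) ^ 4 ∧ M ≤ N ∧ ∃ z : ℂ, ‖z‖ = 1 ∧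
      (z = 1 ∨ z = Complex.exp (2 * Real.pi * Complex.I / M)) ∧
        1 / 16 ≤ |‖∑ n ∈ range M, (ε n : ℂ) * z ^ n‖ / √(M : ℝ) - 1| := by
  by_contra hcon
  push Not at hcon
  refine main N hN ε hε fun M h1 h2 z hz => hcon M h1 h2 z ?_ hz
  rcases hz with rfl | rfl
  · exact norm_one
  · have : Complex.exp (2 * Real.pi * Complex.I / M) =
        Complex.exp (Complex.I * ((2 * Real.pi / M : ℝ) : ℂ)) := by
      congr 1
      push_cast
      ring
    rw [this, Complex.norm_exp_I_mul_ofReal]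

end Vale.Agent.Results.P110.InitialSegments
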