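import Mathlib
import Vale.Agent.Lib.P110F.D1
import Vale.Agent.Lib.P110U.F4

/-!
Real Littlewood polynomials whose maximum on the unit circle is at most `(1 + c) √N`, for every
`c > 0`, and whose modulus is at least `(1 - c) √N` off a set of measure at most `c`.
-/

namespace Vale.Agent.Results.P110.MaxNearSqrt

open MeasureTheory

/-- For every `c > 0` there are arbitrarily large `N` and signs `ε 0, …, ε (N - 1)` such that
`P z = ∑ ε k z ^ k` satisfies `|P z| ≤ (1 + c) √N` for ALL `z` on the unit circle, and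
`|P (exp (2 π i t))| ≥ (1 - c) √N` for all `t ∈ [0, 1]` outside a set of measure at most `c`. -/
theorem result (c : ℝ) (hc : 0 < c) (N₀ : ℕ) : ∃ N : ℕ, N₀ ≤ N ∧ ∃ ε : ℕ → ℝ,
    (∀ k, ε k = 1 ∨ ε k = -1) ∧
    (∀ z : ℂ, ‖z‖ = 1 →
      ‖∑ k ∈ Finset.range N, (ε k : ℂ) * z ^ k‖ ≤ (1 + c) * Real.sqrt N) ∧
    volume {t : ℝ | 0 ≤ t ∧ t ≤ 1 ∧
      ‖∑ k ∈ Finset.range N, (ε k : ℂ) * Complex.exp (2 * Real.pi * Complex.I * t) ^ k‖ <
        (1 - c) * Real.sqrt N} ≤ ENNReal.ofReal c := by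
  rcases le_or_gt 1 c with hc1 | hc1
  · obtain ⟨N, hN, a, ha, hsup⟩ := Vale.Agent.P110U.one_sided hc N₀
    refine ⟨N, hN, a, ha, fun z hz => ?_, ?_⟩
    · obtain ⟨x, hx⟩ : ∃ x : ℝ, z = Complex.exp (2 * Real.pi * Complex.I * x) := by
        refine ⟨Complex.arg z / (2 * Real.pi), ?_⟩
        have h1 := Complex.norm_mul_exp_arg_mul_I z
        rw [hz, Complex.ofReal_one, one_mul] at h1
        conv_lhs => rw [← h1]
        congr 1
        push_cast
        have : (Real.pi : ℂ) ≠ 0 := by exact_mod_cast Real.pi_ne_zero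
        field_simp
      have h2 := hsup x
      refine le_trans (le_of_eq ?_) h2
      congr 1
      refine Finset.sum_congr rfl fun k _ => ?_
      rw [hx, ← Complex.exp_nat_mul]
      unfold Vale.Agent.P110F.e1
      congr 2
      push_cast
      ring
    · have h0 : {t : ℝ | 0 ≤ t ∧ t ≤ 1 ∧
          ‖∑ k ∈ Finset.range N, (a k : ℂ) * Complex.exp (2 * Real.pi * Complex.I * t) ^ k‖ <
            (1 - c) * Real.sqrt N} ⊆ ∅ := by
        rintro t ⟨_, _, h⟩
        have h1 : (1 - c) * Real.sqrt N ≤ 0 :=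
          mul_nonpos_of_nonpos_of_nonneg (by linarith) (Real.sqrt_nonneg _)
        exact absurd (h.trans_le h1) (not_lt.2 (norm_nonneg _))
      refine (measure_mono h0).trans ?_
      rw [measure_empty]
      exact bot_le
  -- the main case
  set η : ℝ := c ^ 2 / 4 with hη
  have hη0 : 0 < η := by positivity
  have hηc : η ≤ c := by rw [hη]; nlinarith
  obtain ⟨N, hN, a, ha, hsup⟩ := Vale.Agent.P110U.one_sided hη0 (max N₀ 1)
  have hN1 : 1 ≤ N := (le_max_right _ _).trans hN
  have hNr : (0 : ℝ) < N := by exact_mod_cast hN1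
  have hs : 0 < Real.sqrt N := Real.sqrt_pos.2 hNr
  have hsq : Real.sqrt N ^ 2 = N := Real.sq_sqrt hNr.le
  have hpe : ∀ t : ℝ, ∑ j ∈ Finset.range N, (a j : ℂ) * Vale.Agent.P110F.e1 (j * t) =
      ∑ k ∈ Finset.range N, (a k : ℂ) * Complex.exp (2 * Real.pi * Complex.I * t) ^ k := by
    intro t
    refine Finset.sum_congr rfl fun k _ => ?_
    rw [← Complex.exp_nat_mul]
    unfold Vale.Agent.P110F.e1
    congr 2
    push_cast
    ring
  have hpars := Vale.Agent.P110F.integral_normSq_poly N (fun k => (a k : ℂ))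
  simp only [hpe] at hsup hpars
  obtain ⟨P, hP⟩ : ∃ P : ℝ → ℝ, P = fun t : ℝ => ‖∑ k ∈ Finset.range N,
      (a k : ℂ) * Complex.exp (2 * Real.pi * Complex.I * t) ^ k‖ := ⟨_, rfl⟩
  have hPc : Continuous P := by
    rw [hP]
    fun_prop
  have hP0 : ∀ t, 0 ≤ P t := fun t => by
    rw [hP]
    positivity
  have hPs : ∀ t, P t ≤ (1 + η) * Real.sqrt N := fun t => by
    rw [hP]
    exact hsup t
  have hPi : ∫ t in (0 : ℝ)..1, P t ^ 2 = N := by
    rw [hP]
    rw [hpars]
    have h1 : ∀ j ∈ Finset.range N, ‖((a j : ℝ) : ℂ)‖ ^ 2 = 1 := by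
      intro j _
      rw [Complex.norm_real]
      rcases ha j with h | h <;> simp [h]
    rw [Finset.sum_congr rfl h1]
    simp
  refine ⟨N, (le_max_left _ _).trans hN, a, ha, fun z hz => ?_, ?_⟩
  · obtain ⟨x, hx⟩ : ∃ x : ℝ, z = Complex.exp (2 * Real.pi * Complex.I * x) := by
      refine ⟨Complex.arg z / (2 * Real.pi), ?_⟩
      have h1 := Complex.norm_mul_exp_arg_mul_I z
      rw [hz, Complex.ofReal_one, one_mul] at h1
      conv_lhs => rw [← h1]
      congr 1
      push_cast
      have : (Real.pi : ℂ) ≠ 0 := by exact_mod_cast Real.pi_ne_zero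
      field_simp
    rw [hx]
    exact (hsup x).trans (mul_le_mul_of_nonneg_right (by linarith) hs.le)
  · -- the set where the modulus is small
    obtain ⟨E, hE⟩ : ∃ E : Set ℝ, E = {t : ℝ | P t < (1 - c) * Real.sqrt N} ∩ Set.Icc 0 1 :=
      ⟨_, rfl⟩
    have hset : {t : ℝ | 0 ≤ t ∧ t ≤ 1 ∧
        ‖∑ k ∈ Finset.range N, (a k : ℂ) * Complex.exp (2 * Real.pi * Complex.I * t) ^ k‖ <
          (1 - c) * Real.sqrt N} ⊆ E := by
      rintro t ⟨h1, h2, h3⟩
      rw [hE, hP]
      exact ⟨h3, h1, h2⟩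
    refine (measure_mono hset).trans ?_
    have hEm : MeasurableSet E := by
      rw [hE]
      exact (measurableSet_lt hPc.measurable measurable_const).inter measurableSet_Icc
    have hEs : E ⊆ Set.Icc 0 1 := by
      rw [hE]
      exact Set.inter_subset_right
    have hEf : volume E ≠ ⊤ := ne_top_of_le_ne_top (by simp) (measure_mono hEs)
    -- pointwise inequality
    have hpt : ∀ t ∈ Set.Icc (0 : ℝ) 1, P t ^ 2 ≤ (1 + η) ^ 2 * N -
        E.indicator (fun _ => ((1 + η) ^ 2 - (1 - c) ^ 2) * (N : ℝ)) t := by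
      intro t _
      by_cases h : t ∈ E
      · rw [Set.indicator_of_mem h]
        have h1 : P t < (1 - c) * Real.sqrt N := by
          rw [hE] at h
          exact h.1
        have h2 : P t ^ 2 ≤ ((1 - c) * Real.sqrt N) ^ 2 := pow_le_pow_left₀ (hP0 t) h1.le 2
        rw [mul_pow, hsq] at h2
        linarith
      · rw [Set.indicator_of_notMem h]
        have h2 : P t ^ 2 ≤ ((1 + η) * Real.sqrt N) ^ 2 := pow_le_pow_left₀ (hP0 t) (hPs t) 2
        rw [mul_pow, hsq] at h2
        linarith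
    have hint : ∫ t in (0 : ℝ)..1, P t ^ 2 ≤
        (1 + η) ^ 2 * N - ((1 + η) ^ 2 - (1 - c) ^ 2) * N * volume.real E := by
      rw [intervalIntegral.integral_of_le zero_le_one, ← integral_Icc_eq_integral_Ioc]
      have hi1 : IntegrableOn (fun _ : ℝ => (1 + η) ^ 2 * (N : ℝ)) (Set.Icc 0 1) :=
        integrableOn_const (by simp)
      have hi2 : IntegrableOn (E.indicator (fun _ => ((1 + η) ^ 2 - (1 - c) ^ 2) * (N : ℝ)))
          (Set.Icc 0 1) := by
        refine (integrable_indicator_iff hEm).2 ?_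
        refine integrableOn_const ?_
        rw [Measure.restrict_apply hEm]
        exact ne_top_of_le_ne_top hEf (measure_mono Set.inter_subset_left)
      have hi3 : IntegrableOn (fun t : ℝ => (1 + η) ^ 2 * (N : ℝ) -
          E.indicator (fun _ => ((1 + η) ^ 2 - (1 - c) ^ 2) * (N : ℝ)) t) (Set.Icc 0 1) :=
        hi1.sub hi2
      refine (setIntegral_mono_on ((hPc.pow 2).integrableOn_Icc) hi3
        measurableSet_Icc hpt).trans (le_of_eq ?_)
      rw [integral_sub hi1 hi2, integral_indicator hEm, Measure.restrict_restrict hEm,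
        Set.inter_eq_left.2 hEs]
      simp
      ring
    rw [hPi] at hint
    have hkey : volume.real E ≤ c := by
      have hE0 : 0 ≤ volume.real E := measureReal_nonneg
      by_contra hcon
      push Not at hcon
      have h1 : 1 ≤ (1 + η) ^ 2 - ((1 + η) ^ 2 - (1 - c) ^ 2) * volume.real E := by
        have h2 : (1 : ℝ) * N ≤
            ((1 + η) ^ 2 - ((1 + η) ^ 2 - (1 - c) ^ 2) * volume.real E) * N := by
          rw [one_mul]
          refine hint.trans (le_of_eq ?_)
          ring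
        exact le_of_mul_le_mul_right h2 hNr
      have h3 : 0 < (1 + η) ^ 2 - (1 - c) ^ 2 := by nlinarith
      have h4 : ((1 + η) ^ 2 - (1 - c) ^ 2) * c <
          ((1 + η) ^ 2 - (1 - c) ^ 2) * volume.real E := mul_lt_mul_of_pos_left hcon h3
      have h5 : (1 + η) ^ 2 - 1 ≤ c ^ 2 := by
        rw [hη]
        nlinarith [sq_nonneg c, sq_nonneg (c ^ 2), mul_pos hc hc]
      have h6 : c ^ 2 ≤ ((1 + η) ^ 2 - (1 - c) ^ 2) * c := by
        have h7 : c ≤ (1 + η) ^ 2 - (1 - c) ^ 2 := by nlinarith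
        nlinarith
      linarith
    rw [← ENNReal.ofReal_toReal hEf]
    exact ENNReal.ofReal_le_ofReal hkey

end Vale.Agent.Results.P110.MaxNearSqrt
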