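import Mathlib
import Vale.Agent.Results.P110.InitialSegments

/-! P110: alternative (ii) of the question holds, with `c = 1/16`, for an initial segment of every real
Littlewood polynomial; no power series with coefficients `1`, `-1` has ultraflat partial sums. -/

namespace Vale.Agent.Results.P110.PartialSumsNotFlat

open Finset Filter Topology

theorem circle_form {ε : ℕ → ℝ} {M : ℕ} {z : ℂ} (hz : ‖z‖ = 1)
    (h : 1 / 16 ≤ |‖∑ n ∈ range M, (ε n : ℂ) * z ^ n‖ / √(M : ℝ) - 1|) (hM : 0 < M) :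
    ∃ w : Circle, (1 + 1 / 16) * √(M : ℝ) ≤ ‖∑ k ∈ range M, (ε k : ℂ) * (w : ℂ) ^ k‖ ∨
      ‖∑ k ∈ range M, (ε k : ℂ) * (w : ℂ) ^ k‖ ≤ (1 - 1 / 16) * √(M : ℝ) := by
  have hz2 : z ∈ Submonoid.unitSphere ℂ := mem_sphere_zero_iff_norm.mpr hz
  refine ⟨⟨z, hz2⟩, ?_⟩
  · have hs : 0 < √(M : ℝ) := Real.sqrt_pos.mpr (by exact_mod_cast hM)
    change (1 + 1 / 16) * √(M : ℝ) ≤ ‖∑ k ∈ range M, (ε k : ℂ) * z ^ k‖ ∨
      ‖∑ k ∈ range M, (ε k : ℂ) * z ^ k‖ ≤ (1 - 1 / 16) * √(M : ℝ)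
    rcases le_abs.mp h with h1 | h1
    · left
      have h2 : 1 + 1 / 16 ≤ ‖∑ n ∈ range M, (ε n : ℂ) * z ^ n‖ / √(M : ℝ) := by linarith
      exact (le_div_iff₀ hs).mp h2
    · right
      have h2 : ‖∑ n ∈ range M, (ε n : ℂ) * z ^ n‖ / √(M : ℝ) ≤ 1 - 1 / 16 := by linarith
      exact (div_le_iff₀ hs).mp h2

theorem result :
    (∀ P : Polynomial ℝ, 99 ≤ P.natDegree →
      (∀ k ≤ P.natDegree, P.coeff k = 1 ∨ P.coeff k = -1) →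
      ∃ M : ℕ, ((P.natDegree : ℝ) + 1) ^ (3 / 4 : ℝ) / 15 ≤ M ∧ M ≤ P.natDegree + 1 ∧
        ∃ z : Circle, (1 + 1 / 16) * √(M : ℝ) ≤ ‖∑ k ∈ range M, (P.coeff k : ℂ) * (z : ℂ) ^ k‖ ∨
          ‖∑ k ∈ range M, (P.coeff k : ℂ) * (z : ℂ) ^ k‖ ≤ (1 - 1 / 16) * √(M : ℝ)) ∧
    (∀ ε : ℕ → ℝ, (∀ k, ε k = 1 ∨ ε k = -1) →
      ∃ᶠ M : ℕ in atTop, ∃ z : Circle,
        (1 + 1 / 16) * √(M : ℝ) ≤ ‖∑ k ∈ range M, (ε k : ℂ) * (z : ℂ) ^ k‖ ∨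
          ‖∑ k ∈ range M, (ε k : ℂ) * (z : ℂ) ^ k‖ ≤ (1 - 1 / 16) * √(M : ℝ)) := by
  have key : ∀ (N : ℕ) (_ : 100 ≤ N) (ε : ℕ → ℝ) (_ : ∀ n, ε n = 1 ∨ ε n = -1),
      ∃ M : ℕ, (N : ℝ) ^ (3 / 4 : ℝ) / 15 ≤ M ∧ M ≤ N ∧
        ∃ z : Circle, (1 + 1 / 16) * √(M : ℝ) ≤ ‖∑ k ∈ range M, (ε k : ℂ) * (z : ℂ) ^ k‖ ∨
          ‖∑ k ∈ range M, (ε k : ℂ) * (z : ℂ) ^ k‖ ≤ (1 - 1 / 16) * √(M : ℝ) := by
    intro N hN ε hε
    obtain ⟨M, h1, h2, z, hz, _, h4⟩ := InitialSegments.result N hN ε hε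
    have hM : 0 < M := by
      rcases Nat.eq_zero_or_pos M with h | h
      · subst h
        have : 0 < N ^ 3 := by positivity
        simp at h1
        omega
      · exact h
    refine ⟨M, ?_, h2, circle_form hz h4 hM⟩
    have h5 : (N : ℝ) ^ 3 ≤ (15 * (M : ℝ)) ^ 4 := by exact_mod_cast h1
    have h6 : ((N : ℝ) ^ (3 / 4 : ℝ)) ^ 4 ≤ (15 * (M : ℝ)) ^ 4 := by
      rw [← Real.rpow_natCast ((N : ℝ) ^ (3 / 4 : ℝ)) 4, ← Real.rpow_mul (Nat.cast_nonneg N)]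
      have h7 : (3 / 4 : ℝ) * ((4 : ℕ) : ℝ) = ((3 : ℕ) : ℝ) := by norm_num
      rw [h7, Real.rpow_natCast]
      exact h5
    have h8 : (N : ℝ) ^ (3 / 4 : ℝ) ≤ 15 * (M : ℝ) :=
      le_of_pow_le_pow_left₀ (by norm_num) (by positivity) h6
    linarith
  constructor
  · intro P hP hc
    let ε : ℕ → ℝ := fun k => if k ≤ P.natDegree then P.coeff k else 1
    have hε : ∀ n, ε n = 1 ∨ ε n = -1 := by
      intro n
      by_cases h : n ≤ P.natDegree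
      · simp only [ε, if_pos h]
        exact hc n h
      · simp only [ε, if_neg h]
        exact Or.inl trivial
    obtain ⟨M, h1, h2, z, h3⟩ := key (P.natDegree + 1) (by omega) ε hε
    refine ⟨M, by exact_mod_cast h1, h2, z, ?_⟩
    have h4 : ∑ k ∈ range M, (ε k : ℂ) * (z : ℂ) ^ k =
        ∑ k ∈ range M, (P.coeff k : ℂ) * (z : ℂ) ^ k := by
      refine sum_congr rfl fun k hk => ?_
      have hk2 : k ≤ P.natDegree := by
        have := mem_range.mp hk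
        omega
      simp only [ε, if_pos hk2]
    rw [h4] at h3
    exact h3
  · intro ε hε
    rw [frequently_atTop]
    intro A
    obtain ⟨N, hN1, hN2⟩ : ∃ N : ℕ, 100 ≤ N ∧ (A : ℝ) ≤ (N : ℝ) ^ (3 / 4 : ℝ) / 15 := by
      have h1 : Tendsto (fun N : ℕ => (N : ℝ) ^ (3 / 4 : ℝ) / 15) atTop atTop :=
        (((tendsto_rpow_atTop (by norm_num : (0 : ℝ) < 3 / 4)).comp
          tendsto_natCast_atTop_atTop).atTop_div_const (by norm_num))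
      obtain ⟨N, h2, h3⟩ := ((eventually_ge_atTop 100).and (h1.eventually_ge_atTop (A : ℝ))).exists
      exact ⟨N, h2, h3⟩
    obtain ⟨M, h1, _, z, h3⟩ := key N hN1 ε hε
    refine ⟨M, ?_, z, h3⟩
    have : (A : ℝ) ≤ M := hN2.trans h1
    exact_mod_cast this

end Vale.Agent.Results.P110.PartialSumsNotFlat
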